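import Vale.Agent.P237.Quant.TailData.N16.tailN16N1Part0
import Vale.Agent.P237.Quant.TailData.N16.tailN16N1Part1
import Vale.Agent.P237.Quant.TailData.N16.tailN16N1Part2

/-!
Tail calibration tailN16N1 in dimension 16. The check. Generated data, checked by the kernel.
-/

set_option maxRecDepth 100000
set_option linter.all false

namespace Vale.Agent.P237.Quant.TailData

open TailCert


/-- The calibration. -/
noncomputable def tailN16N1 : Cfg :=
  tailN16N1Base.withIvals (List.flatten [tailN16N1L0, tailN16N1L1, tailN16N1L2, tailN16N1L3, tailN16N1L4, tailN16N1L5, tailN16N1L6, tailN16N1L7, tailN16N1L8, tailN16N1L9])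

theorem tailN16N1_parts : [tailN16N1L0, tailN16N1L1, tailN16N1L2, tailN16N1L3, tailN16N1L4, tailN16N1L5, tailN16N1L6, tailN16N1L7, tailN16N1L8, tailN16N1L9].Forall fun l => tailN16N1Base.partUsed tailN16N1Used l = true := by
  simp only [List.forall_cons, List.Forall]
  exact ⟨tailN16N1L0_ok, tailN16N1L1_ok, tailN16N1L2_ok, tailN16N1L3_ok, tailN16N1L4_ok, tailN16N1L5_ok, tailN16N1L6_ok, tailN16N1L7_ok, tailN16N1L8_ok, tailN16N1L9_ok⟩

theorem tailN16N1_check : tailN16N1.check = true :=
  Cfg.check_of_parts (by decide +kernel) tailN16N1_parts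

end Vale.Agent.P237.Quant.TailData
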