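import Vale.Agent.P237.Quant.TailData.N16.tailN16P0Part0
import Vale.Agent.P237.Quant.TailData.N16.tailN16P0Part1

/-!
Tail calibration tailN16P0 in dimension 16. The check. Generated data, checked by the kernel.
-/

set_option maxRecDepth 100000
set_option linter.all false

namespace Vale.Agent.P237.Quant.TailData

open TailCert


/-- The calibration. -/
noncomputable def tailN16P0 : Cfg :=
  tailN16P0Base.withIvals (List.flatten [tailN16P0L0, tailN16P0L1, tailN16P0L2, tailN16P0L3, tailN16P0L4, tailN16P0L5, tailN16P0L6])

theorem tailN16P0_parts : [tailN16P0L0, tailN16P0L1, tailN16P0L2, tailN16P0L3, tailN16P0L4, tailN16P0L5, tailN16P0L6].Forall fun l => tailN16P0Base.partUsed tailN16P0Used l = true := by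
  simp only [List.forall_cons, List.Forall]
  exact ⟨tailN16P0L0_ok, tailN16P0L1_ok, tailN16P0L2_ok, tailN16P0L3_ok, tailN16P0L4_ok, tailN16P0L5_ok, tailN16P0L6_ok⟩

theorem tailN16P0_check : tailN16P0.check = true :=
  Cfg.check_of_parts (by decide +kernel) tailN16P0_parts

end Vale.Agent.P237.Quant.TailData
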