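import Vale.Agent.P237.Quant.TailData.N16.tailN16P1Part0
import Vale.Agent.P237.Quant.TailData.N16.tailN16P1Part1
import Vale.Agent.P237.Quant.TailData.N16.tailN16P1Part2
import Vale.Agent.P237.Quant.TailData.N16.tailN16P1Part3
import Vale.Agent.P237.Quant.TailData.N16.tailN16P1Part4
import Vale.Agent.P237.Quant.TailData.N16.tailN16P1Part5

/-!
Tail calibration tailN16P1 in dimension 16. The check. Generated data, checked by the kernel.
-/

set_option maxRecDepth 100000
set_option linter.all false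

namespace Vale.Agent.P237.Quant.TailData

open TailCert


/-- The calibration. -/
noncomputable def tailN16P1 : Cfg :=
  tailN16P1Base.withIvals (List.flatten [tailN16P1L0, tailN16P1L1, tailN16P1L2, tailN16P1L3, tailN16P1L4, tailN16P1L5, tailN16P1L6, tailN16P1L7, tailN16P1L8, tailN16P1L9, tailN16P1L10, tailN16P1L11, tailN16P1L12, tailN16P1L13, tailN16P1L14, tailN16P1L15, tailN16P1L16, tailN16P1L17, tailN16P1L18, tailN16P1L19, tailN16P1L20])

theorem tailN16P1_parts : [tailN16P1L0, tailN16P1L1, tailN16P1L2, tailN16P1L3, tailN16P1L4, tailN16P1L5, tailN16P1L6, tailN16P1L7, tailN16P1L8, tailN16P1L9, tailN16P1L10, tailN16P1L11, tailN16P1L12, tailN16P1L13, tailN16P1L14, tailN16P1L15, tailN16P1L16, tailN16P1L17, tailN16P1L18, tailN16P1L19, tailN16P1L20].Forall fun l => tailN16P1Base.partUsed tailN16P1Used l = true := by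
  simp only [List.forall_cons, List.Forall]
  exact ⟨tailN16P1L0_ok, tailN16P1L1_ok, tailN16P1L2_ok, tailN16P1L3_ok, tailN16P1L4_ok, tailN16P1L5_ok, tailN16P1L6_ok, tailN16P1L7_ok, tailN16P1L8_ok, tailN16P1L9_ok, tailN16P1L10_ok, tailN16P1L11_ok, tailN16P1L12_ok, tailN16P1L13_ok, tailN16P1L14_ok, tailN16P1L15_ok, tailN16P1L16_ok, tailN16P1L17_ok, tailN16P1L18_ok, tailN16P1L19_ok, tailN16P1L20_ok⟩

theorem tailN16P1_check : tailN16P1.check = true :=
  Cfg.check_of_parts (by decide +kernel) tailN16P1_parts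

end Vale.Agent.P237.Quant.TailData
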