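import Vale.Agent.P237.Quant.TailData.N16.tailN16P3Part0
import Vale.Agent.P237.Quant.TailData.N16.tailN16P3Part1
import Vale.Agent.P237.Quant.TailData.N16.tailN16P3Part2

/-!
Tail calibration tailN16P3 in dimension 16. The check. Generated data, checked by the kernel.
-/

set_option maxRecDepth 100000
set_option linter.all false

namespace Vale.Agent.P237.Quant.TailData

open TailCert


/-- The calibration. -/
noncomputable def tailN16P3 : Cfg :=
  tailN16P3Base.withIvals (List.flatten [tailN16P3L0, tailN16P3L1, tailN16P3L2, tailN16P3L3, tailN16P3L4, tailN16P3L5, tailN16P3L6, tailN16P3L7, tailN16P3L8])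

theorem tailN16P3_parts : [tailN16P3L0, tailN16P3L1, tailN16P3L2, tailN16P3L3, tailN16P3L4, tailN16P3L5, tailN16P3L6, tailN16P3L7, tailN16P3L8].Forall fun l => tailN16P3Base.partUsed tailN16P3Used l = true := by
  simp only [List.forall_cons, List.Forall]
  exact ⟨tailN16P3L0_ok, tailN16P3L1_ok, tailN16P3L2_ok, tailN16P3L3_ok, tailN16P3L4_ok, tailN16P3L5_ok, tailN16P3L6_ok, tailN16P3L7_ok, tailN16P3L8_ok⟩

theorem tailN16P3_check : tailN16P3.check = true :=
  Cfg.check_of_parts (by decide +kernel) tailN16P3_parts

end Vale.Agent.P237.Quant.TailData
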